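import Mathlib

open Set Matroid

namespace Vale.Agent.Lib.P068

variable {α : Type*} {ι : Type*}

lemma contract_indep_mono {M : Matroid α} {X X' J : Set α} (h : (M ／ X).Indep J)
    (hX : X' ⊆ X) : (M ／ X').Indep J := by
  obtain ⟨B', hB'⟩ := M.exists_isBasis' X'
  obtain ⟨B, hB, hB'B⟩ := hB'.indep.subset_isBasis'_of_subset (hB'.subset.trans hX)
  rw [hB.contract_indep_iff] at h
  rw [hB'.contract_indep_iff]
  exact ⟨h.1.subset (union_subset_union_right _ hB'B), h.2.mono_left hX⟩

/-- The covering systems: families `I` such that each `I i` is independent in the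
contraction of `M i` onto the union of the family. -/
def CovSet (E : Set α) (M : ι → Matroid α) : Set (ι → Set α) :=
  {I | ∀ i, (M i ／ (E \ ⋃ j, I j)).Indep (I i)}

lemma exists_maximal_cov (E : Set α) (M : ι → Matroid α) (hfin : ∀ i, (M i).Finitary) :
    ∃ I, Maximal (· ∈ CovSet E M) I := by
  apply zorn_le₀
  intro c hc hchain
  rcases c.eq_empty_or_nonempty with rfl | hne
  · refine ⟨fun _ => ∅, ?_, by simp⟩
    intro i
    exact (M i ／ _).empty_indep
  · refine ⟨fun i => ⋃ I ∈ c, I i, ?_, ?_⟩
    · intro i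
      have := hfin i
      apply indep_of_forall_finite_subset_indep
      intro F hF hFfin
      obtain ⟨I, hIc, hFI⟩ : ∃ I ∈ c, F ⊆ I i := by
        have hdir : DirectedOn (fun I J : ι → Set α => I i ⊆ J i) c := by
          intro I hI J hJ
          rcases hchain.total hI hJ with h | h
          · exact ⟨J, hJ, h i, subset_rfl⟩
          · exact ⟨I, hI, subset_rfl, h i⟩
        have h2 := DirectedOn.exists_mem_subset_of_finset_subset_biUnion
          (f := fun I : ι → Set α => I i) hne hdir (s := hFfin.toFinset) (by simpa using hF)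
        simpa using h2
      have h1 : (M i ／ (E \ ⋃ j, I j)).Indep F := (hc hIc i).subset hFI
      refine contract_indep_mono h1 ?_
      apply sdiff_subset_sdiff_right
      intro y hy
      obtain ⟨j, hj⟩ := mem_iUnion.1 hy
      exact mem_iUnion.2 ⟨j, mem_biUnion hIc hj⟩
    · intro I hI i
      exact subset_biUnion_of_mem (u := fun I : ι → Set α => I i) hI

lemma maximal_cov_closure {E : Set α} {M : ι → Matroid α} (hE : ∀ i, (M i).E = E)
    (hrep : ∀ i, {j | M j = M i}.Infinite) {I : ι → Set α} (hI : Maximal (· ∈ CovSet E M) I)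
    (i : ι) {x : α} (hx : x ∈ E \ ⋃ j, I j) {Z : Set α} (hZ : Z.Finite) :
    x ∈ (M i).closure ((E \ ⋃ j, I j) \ (Z ∪ {x})) := by
  by_contra hxH
  have hDsub : (E \ ⋃ j, I j) \ (M i).closure ((E \ ⋃ j, I j) \ (Z ∪ {x})) ⊆ Z ∪ {x} := by
    intro y hy
    by_contra hyZ
    refine hy.2 ((M i).subset_closure _ ?_ ⟨hy.1, hyZ⟩)
    rw [hE i]
    exact sdiff_subset.trans sdiff_subset
  generalize hC : (⋃ j, I j) = C at *
  generalize hP : E \ C = P at *
  generalize hH : (M i).closure (P \ (Z ∪ {x})) = H at *
  generalize hD : P \ H = D at *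
  have hDfin : D.Finite := (hZ.union (finite_singleton x)).subset hDsub
  have hxD : x ∈ D := hD ▸ ⟨hx, hxH⟩
  have : Nonempty ι := ⟨i⟩
  obtain ⟨f, hfT, hfinj⟩ := hDfin.exists_injOn_of_encard_le (t := {j | M j = M i})
    (by rw [(hrep i).encard_eq]; exact le_top)
  have hI' : (fun j => I j ∪ {d | d ∈ D ∧ f d = j}) ∈ CovSet E M := by
    intro j
    have hU : (⋃ k, (I k ∪ {d | d ∈ D ∧ f d = k})) = C ∪ D := by
      rw [← hC]
      ext y
      simp only [mem_iUnion, mem_union, mem_ofPred_eq]
      constructor
      · rintro ⟨k, hk | hk⟩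
        · exact Or.inl ⟨k, hk⟩
        · exact Or.inr hk.1
      · rintro (⟨k, hk⟩ | hy)
        · exact ⟨k, Or.inl hk⟩
        · exact ⟨f y, Or.inr ⟨hy, rfl⟩⟩
    have hED : E \ (C ∪ D) = P ∩ H := by
      rw [← hD, ← hP]
      ext y
      simp only [mem_sdiff, mem_union, mem_inter_iff]
      tauto
    simp only [hU, hED]
    by_cases hj : ∃ d ∈ D, f d = j
    · obtain ⟨d, hdD, rfl⟩ := hj
      have hI'j : I (f d) ∪ {d' | d' ∈ D ∧ f d' = f d} = insert d (I (f d)) := by
        ext y
        simp only [mem_union, mem_ofPred_eq, mem_insert_iff]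
        constructor
        · rintro (h | ⟨h1, h2⟩)
          · exact Or.inr h
          · exact Or.inl (hfinj h1 hdD h2)
        · rintro (rfl | h)
          · exact Or.inr ⟨hdD, rfl⟩
          · exact Or.inl h
      have hMj : M (f d) = M i := hfT hdD
      rw [hI'j, hMj]
      have h0 : (M i ／ P).Indep (I (f d)) := by
        have := hI.prop (f d)
        rwa [hMj, hC, hP] at this
      obtain ⟨B0, hB0⟩ := (M i).exists_isBasis' (P ∩ H)
      have hdP : d ∈ P := by rw [← hD] at hdD; exact hdD.1
      have hdH : d ∉ H := by rw [← hD] at hdD; exact hdD.2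
      have hd_not : d ∉ (M i).closure B0 := by
        rw [hB0.closure_eq_closure]
        intro hd
        have hsub : (M i).closure (P ∩ H) ⊆ H := by
          rw [← hH]
          apply (M i).closure_subset_closure_of_subset_closure
          rw [hH]
          exact inter_subset_right
        exact hdH (hsub hd)
      have hdE : d ∈ (M i).E := by
        rw [hE i, ← hP] at *
        exact hdP.1
      have hins : (M i).Indep (insert d B0) := by
        rw [hB0.indep.insert_indep_iff]
        exact Or.inl ⟨hdE, hd_not⟩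
      have hinsP : insert d B0 ⊆ P := insert_subset hdP (hB0.subset.trans inter_subset_left)
      obtain ⟨BP, hBP, hBsub⟩ := hins.subset_isBasis'_of_subset hinsP
      rw [hBP.contract_indep_iff] at h0
      rw [hB0.contract_indep_iff]
      refine ⟨h0.1.subset ?_, ?_⟩
      · intro y hy
        rcases hy with (rfl | hy) | hy
        · exact Or.inr (hBsub (mem_insert _ _))
        · exact Or.inl hy
        · exact Or.inr (hBsub (mem_insert_of_mem _ hy))
      · rw [disjoint_left]
        rintro y ⟨hyP, hyH⟩ (rfl | hy)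
        · exact hdH hyH
        · exact (disjoint_left.1 h0.2 hyP) hy
    · have hI'j : I j ∪ {d | d ∈ D ∧ f d = j} = I j := by
        ext y
        simp only [mem_union, mem_ofPred_eq]
        constructor
        · rintro (h | ⟨h1, h2⟩)
          · exact h
          · exact (hj ⟨y, h1, h2⟩).elim
        · exact fun h => Or.inl h
      rw [hI'j]
      have := hI.prop j
      rw [hC, hP] at this
      exact contract_indep_mono this inter_subset_left
  have hle : I ≤ (fun j => I j ∪ {d | d ∈ D ∧ f d = j}) := fun j => subset_union_left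
  have hge := hI.le_of_ge hI' hle
  have hx' : x ∈ I (f x) := hge (f x) (Or.inr ⟨hxD, rfl⟩)
  have hxC : x ∈ C := hC ▸ mem_iUnion.2 ⟨f x, hx'⟩
  rw [← hP] at hx
  exact hx.2 hxC

end Vale.Agent.Lib.P068
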