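import Mathlib
import Vale.Agent.Lib.P068.Cover

open Set Matroid

namespace Vale.Agent.Lib.P068

variable {α : Type*} {ι : Type*}

/-- End-extension of covering systems: `I'` contains `I` and adds no new element inside the
union of `I`. -/
def CovExt (I I' : ι → Set α) : Prop := ∀ i, I i ⊆ I' i ∧ I' i ∩ (⋃ j, I j) ⊆ I i

lemma covExt_trans {I I' I'' : ι → Set α} (h1 : CovExt I I') (h2 : CovExt I' I'') :
    CovExt I I'' := by
  intro i
  refine ⟨(h1 i).1.trans (h2 i).1, ?_⟩
  rintro y ⟨hy, hyU⟩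
  obtain ⟨j, hj⟩ := mem_iUnion.1 hyU
  have h3 : y ∈ I' i := (h2 i).2 ⟨hy, mem_iUnion.2 ⟨j, (h1 j).1 hj⟩⟩
  exact (h1 i).2 ⟨h3, hyU⟩

lemma contract_indep_iff_closure {M : Matroid α} {X J : Set α} :
    (M ／ X).Indep J ↔ J ⊆ M.E \ X ∧ ∀ e ∈ J, e ∉ M.closure ((J \ {e}) ∪ X) := by
  rw [indep_iff_forall_notMem_closure_sdiff']
  simp only [contract_ground, contract_closure_eq]
  constructor
  · rintro ⟨h1, h2⟩
    exact ⟨h1, fun e he hcl => h2 e he ⟨hcl, (h1 he).2⟩⟩
  · rintro ⟨h1, h2⟩
    exact ⟨h1, fun e he hcl => h2 e he hcl.1⟩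

/-- A covering system that is maximal with respect to end-extension exists, for arbitrary
matroids. -/
lemma exists_maximal_covExt (E : Set α) (M : ι → Matroid α) (hE : ∀ i, (M i).E = E) :
    ∃ I ∈ CovSet E M, ∀ I' ∈ CovSet E M, CovExt I I' → CovExt I' I := by
  have hbound : ∀ c : Set {I // I ∈ CovSet E M},
      IsChain (fun a b : {I // I ∈ CovSet E M} => CovExt a.1 b.1) c →
      ∃ ub : {I // I ∈ CovSet E M}, ∀ a ∈ c, CovExt a.1 ub.1 := by
    intro c hc
    obtain ⟨U, hU⟩ : ∃ U : ι → Set α, U = fun i => ⋃ a ∈ c, a.1 i := ⟨_, rfl⟩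
    have hsub : ∀ a ∈ c, ∀ i, a.1 i ⊆ U i := by
      intro a ha i
      rw [hU]
      exact subset_biUnion_of_mem (u := fun a : {I // I ∈ CovSet E M} => a.1 i) ha
    have hA : ∀ a ∈ c, CovExt a.1 U := by
      intro a ha i
      refine ⟨hsub a ha i, ?_⟩
      rintro y ⟨hy, hyU⟩
      rw [hU] at hy
      obtain ⟨b, hb, hyb⟩ := mem_iUnion₂.1 hy
      by_cases hab : a = b
      · rw [hab]; exact hyb
      · rcases hc ha hb hab with h | h
        · exact (h i).2 ⟨hyb, hyU⟩
        · exact (h i).1 hyb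
    have hUE : ∀ i, U i ⊆ E := by
      intro i y hy
      rw [hU] at hy
      obtain ⟨a, ha, hya⟩ := mem_iUnion₂.1 hy
      have h1 := (a.2 i).subset_ground hya
      rw [contract_ground, hE i] at h1
      exact h1.1
    have hB : U ∈ CovSet E M := by
      intro i
      rw [contract_indep_iff_closure]
      refine ⟨?_, ?_⟩
      · intro y hy
        rw [hE i]
        exact ⟨hUE i hy, fun h => h.2 (mem_iUnion.2 ⟨i, hy⟩)⟩
      · intro y hy
        have hy' := hy
        rw [hU] at hy'
        obtain ⟨a, ha, hya⟩ := mem_iUnion₂.1 hy'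
        have h1 := (contract_indep_iff_closure.1 (a.2 i)).2 y hya
        intro h2
        apply h1
        refine (M i).closure_subset_closure ?_ h2
        rintro z (⟨hz, hzy⟩ | ⟨hzE, hzU⟩)
        · by_cases hzC : z ∈ ⋃ j, a.1 j
          · exact Or.inl ⟨(hA a ha i).2 ⟨hz, hzC⟩, hzy⟩
          · exact Or.inr ⟨hUE i hz, hzC⟩
        · refine Or.inr ⟨hzE, fun h => hzU ?_⟩
          obtain ⟨j, hj⟩ := mem_iUnion.1 h
          exact mem_iUnion.2 ⟨j, hsub a ha j hj⟩
    exact ⟨⟨U, hB⟩, fun a ha => hA a ha⟩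
  obtain ⟨m, hm⟩ := exists_maximal_of_chains_bounded
    (r := fun a b : {I // I ∈ CovSet E M} => CovExt a.1 b.1) hbound
    (fun h1 h2 => covExt_trans h1 h2)
  exact ⟨m.1, m.2, fun I' hI' h => hm ⟨I', hI'⟩ h⟩

lemma maximal_covExt_closure {E : Set α} {M : ι → Matroid α} (hE : ∀ i, (M i).E = E)
    (hrep : ∀ i, {j | M j = M i}.Infinite) {I : ι → Set α} (hI : I ∈ CovSet E M)
    (hmax : ∀ I' ∈ CovSet E M, CovExt I I' → CovExt I' I)
    (i : ι) {x : α} (hx : x ∈ E \ ⋃ j, I j) {Z : Set α} (hZ : Z.Countable) :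
    x ∈ (M i).closure ((E \ ⋃ j, I j) \ (Z ∪ {x})) := by
  by_contra hxH
  have hDsub : (E \ ⋃ j, I j) \ (M i).closure ((E \ ⋃ j, I j) \ (Z ∪ {x})) ⊆ Z ∪ {x} := by
    intro y hy
    by_contra hyZ
    refine hy.2 ((M i).subset_closure _ ?_ ⟨hy.1, hyZ⟩)
    rw [hE i]
    exact sdiff_subset.trans sdiff_subset
  generalize hC : (⋃ j, I j) = C at *
  generalize hP : E \ C = P at *
  generalize hH : (M i).closure (P \ (Z ∪ {x})) = H at *
  generalize hD : P \ H = D at *
  have hDc : D.Countable := (hZ.union (countable_singleton x)).mono hDsub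
  have hxD : x ∈ D := hD ▸ ⟨hx, hxH⟩
  obtain ⟨g, hg⟩ := Set.countable_iff_exists_injOn.1 hDc
  obtain ⟨f, hfdef⟩ : ∃ f : α → ι, f = fun d => ((hrep i).natEmbedding _ (g d)).1 := ⟨_, rfl⟩
  have hfT : ∀ d, M (f d) = M i := by
    intro d
    rw [hfdef]
    exact ((hrep i).natEmbedding _ (g d)).2
  have hfinj : InjOn f D := by
    intro d hd d' hd' hdd
    rw [hfdef] at hdd
    exact hg hd hd' (((hrep i).natEmbedding _).injective (Subtype.ext hdd))
  have hI' : (fun j => I j ∪ {d | d ∈ D ∧ f d = j}) ∈ CovSet E M := by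
    intro j
    have hU : (⋃ k, (I k ∪ {d | d ∈ D ∧ f d = k})) = C ∪ D := by
      rw [← hC]
      ext y
      simp only [mem_iUnion, mem_union, mem_ofPred_eq]
      constructor
      · rintro ⟨k, hk | hk⟩
        · exact Or.inl ⟨k, hk⟩
        · exact Or.inr hk.1
      · rintro (⟨k, hk⟩ | hy)
        · exact ⟨k, Or.inl hk⟩
        · exact ⟨f y, Or.inr ⟨hy, rfl⟩⟩
    have hED : E \ (C ∪ D) = P ∩ H := by
      rw [← hD, ← hP]
      ext y
      simp only [mem_sdiff, mem_union, mem_inter_iff]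
      tauto
    simp only [hU, hED]
    by_cases hj : ∃ d ∈ D, f d = j
    · obtain ⟨d, hdD, rfl⟩ := hj
      have hI'j : I (f d) ∪ {d' | d' ∈ D ∧ f d' = f d} = insert d (I (f d)) := by
        ext y
        simp only [mem_union, mem_ofPred_eq, mem_insert_iff]
        constructor
        · rintro (h | ⟨h1, h2⟩)
          · exact Or.inr h
          · exact Or.inl (hfinj h1 hdD h2)
        · rintro (rfl | h)
          · exact Or.inr ⟨hdD, rfl⟩
          · exact Or.inl h
      have hMj : M (f d) = M i := hfT d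
      rw [hI'j, hMj]
      have h0 : (M i ／ P).Indep (I (f d)) := by
        have := hI (f d)
        rwa [hMj, hC, hP] at this
      obtain ⟨B0, hB0⟩ := (M i).exists_isBasis' (P ∩ H)
      have hdP : d ∈ P := by rw [← hD] at hdD; exact hdD.1
      have hdH : d ∉ H := by rw [← hD] at hdD; exact hdD.2
      have hd_not : d ∉ (M i).closure B0 := by
        rw [hB0.closure_eq_closure]
        intro hd
        have hsub : (M i).closure (P ∩ H) ⊆ H := by
          rw [← hH]
          apply (M i).closure_subset_closure_of_subset_closure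
          rw [hH]
          exact inter_subset_right
        exact hdH (hsub hd)
      have hdE : d ∈ (M i).E := by
        rw [hE i, ← hP] at *
        exact hdP.1
      have hins : (M i).Indep (insert d B0) := by
        rw [hB0.indep.insert_indep_iff]
        exact Or.inl ⟨hdE, hd_not⟩
      have hinsP : insert d B0 ⊆ P := insert_subset hdP (hB0.subset.trans inter_subset_left)
      obtain ⟨BP, hBP, hBsub⟩ := hins.subset_isBasis'_of_subset hinsP
      rw [hBP.contract_indep_iff] at h0
      rw [hB0.contract_indep_iff]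
      refine ⟨h0.1.subset ?_, ?_⟩
      · intro y hy
        rcases hy with (rfl | hy) | hy
        · exact Or.inr (hBsub (mem_insert _ _))
        · exact Or.inl hy
        · exact Or.inr (hBsub (mem_insert_of_mem _ hy))
      · rw [disjoint_left]
        rintro y ⟨hyP, hyH⟩ (rfl | hy)
        · exact hdH hyH
        · exact (disjoint_left.1 h0.2 hyP) hy
    · have hI'j : I j ∪ {d | d ∈ D ∧ f d = j} = I j := by
        ext y
        simp only [mem_union, mem_ofPred_eq]
        constructor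
        · rintro (h | ⟨h1, h2⟩)
          · exact h
          · exact (hj ⟨y, h1, h2⟩).elim
        · exact fun h => Or.inl h
      rw [hI'j]
      have := hI j
      rw [hC, hP] at this
      exact contract_indep_mono this inter_subset_left
  have hext : CovExt I (fun j => I j ∪ {d | d ∈ D ∧ f d = j}) := by
    intro j
    refine ⟨subset_union_left, ?_⟩
    rintro y ⟨hy | hy, hyC⟩
    · exact hy
    · exfalso
      rw [hC] at hyC
      have hyD : y ∈ D := hy.1
      rw [← hD, ← hP] at hyD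
      exact hyD.1.2 hyC
  have hge := hmax _ hI' hext
  have hx' : x ∈ I (f x) := (hge (f x)).1 (Or.inr ⟨hxD, rfl⟩)
  have hxC : x ∈ C := hC ▸ mem_iUnion.2 ⟨f x, hx'⟩
  rw [← hP] at hx
  exact hx.2 hxC

end Vale.Agent.Lib.P068
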