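import Mathlib

open Set Matroid

namespace Vale.Agent.Lib.P068

variable {α : Type*} {ι : Type*}

/-- Self-spanning packings inside `P`: pairwise disjoint subsets of `P` such that every
member of the family is spanned by each `S i` in `M i`. -/
def PackSet (P : Set α) (M : ι → Matroid α) : Set (ι → Set α) :=
  {S | (∀ i, S i ⊆ P) ∧ Pairwise (fun i j => Disjoint (S i) (S j)) ∧
    ∀ i j, S j ⊆ (M i).closure (S i)}

lemma exists_maximal_pack (P : Set α) (M : ι → Matroid α) :
    ∃ S, Maximal (· ∈ PackSet P M) S := by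
  apply zorn_le₀
  intro c hc hchain
  refine ⟨fun i => ⋃ S ∈ c, S i, ⟨?_, ?_, ?_⟩, ?_⟩
  · intro i
    exact iUnion₂_subset fun S hS => (hc hS).1 i
  · intro i j hij
    rw [disjoint_left]
    intro x hx hx'
    obtain ⟨S, hS, hxS⟩ := mem_iUnion₂.1 hx
    obtain ⟨S', hS', hxS'⟩ := mem_iUnion₂.1 hx'
    rcases hchain.total hS hS' with h | h
    · exact disjoint_left.1 ((hc hS').2.1 hij) (h i hxS) hxS'
    · exact disjoint_left.1 ((hc hS).2.1 hij) hxS (h j hxS')
  · intro i j x hx
    obtain ⟨S, hS, hxS⟩ := mem_iUnion₂.1 hx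
    exact (M i).closure_subset_closure
      (subset_biUnion_of_mem (u := fun S : ι → Set α => S i) hS) ((hc hS).2.2 i j hxS)
  · intro S hS i
    exact subset_biUnion_of_mem (u := fun S : ι → Set α => S i) hS

/-- One closing step. -/
def stepSet (K : ι → α → Finset α → Finset α) (A : Set α) : Set α :=
  A ∪ ⋃ (i : ι) (x ∈ A) (Z ∈ {Z : Finset α | (Z : Set α) ⊆ A}), (K i x Z : Set α)

lemma countable_finsets_subset {A : Set α} (hA : A.Countable) :
    {Z : Finset α | (Z : Set α) ⊆ A}.Countable := by
  have h1 := (Set.countable_ofPred_finite_subset hA).preimage_of_injOn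
    (f := fun Z : Finset α => (Z : Set α)) Finset.coe_injective.injOn
  refine h1.mono ?_
  intro Z hZ
  exact ⟨Z.finite_toSet, hZ⟩

lemma stepSet_countable [Countable ι] (K : ι → α → Finset α → Finset α) {A : Set α}
    (hA : A.Countable) : (stepSet K A).Countable := by
  refine hA.union (countable_iUnion fun i => hA.biUnion fun x _ =>
    (countable_finsets_subset hA).biUnion fun Z _ => (K i x Z).countable_toSet)

/-- A countable set containing `x₀` and closed under `K`. -/
def closedSet (K : ι → α → Finset α → Finset α) (x₀ : α) : Set α :=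
  ⋃ n : ℕ, (stepSet K)^[n] {x₀}

lemma closedSet_countable [Countable ι] (K : ι → α → Finset α → Finset α) (x₀ : α) :
    (closedSet K x₀).Countable := by
  refine countable_iUnion fun n => ?_
  induction n with
  | zero => simp
  | succ n ih =>
    rw [Function.iterate_succ_apply']
    exact stepSet_countable K ih

lemma mem_closedSet_self (K : ι → α → Finset α → Finset α) (x₀ : α) : x₀ ∈ closedSet K x₀ :=
  mem_iUnion.2 ⟨0, by simp⟩

lemma closedSet_closed (K : ι → α → Finset α → Finset α) (x₀ : α) (i : ι) {x : α}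
    (hx : x ∈ closedSet K x₀) {Z : Finset α} (hZ : (Z : Set α) ⊆ closedSet K x₀) :
    (K i x Z : Set α) ⊆ closedSet K x₀ := by
  have hmono : Monotone (fun n : ℕ => (stepSet K)^[n] {x₀}) := by
    apply monotone_nat_of_le_succ
    intro n
    show (stepSet K)^[n] {x₀} ⊆ (stepSet K)^[n + 1] {x₀}
    rw [Function.iterate_succ_apply']
    exact subset_union_left
  obtain ⟨n, hn⟩ := mem_iUnion.1 hx
  obtain ⟨m, hm⟩ := (hmono.directed_le).exists_mem_subset_of_finset_subset_biUnion hZ
  intro y hy
  refine mem_iUnion.2 ⟨max n m + 1, ?_⟩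
  rw [Function.iterate_succ_apply']
  refine Or.inr ?_
  have hxn : x ∈ (stepSet K)^[max n m] {x₀} := hmono (le_max_left n m) hn
  have hZm : (Z : Set α) ⊆ (stepSet K)^[max n m] {x₀} := hm.trans (hmono (le_max_right n m))
  exact mem_iUnion.2 ⟨i, mem_iUnion₂.2 ⟨x, hxn, mem_iUnion₂.2 ⟨Z, hZm, hy⟩⟩⟩

lemma closedSet_subset (K : ι → α → Finset α → Finset α) (x₀ : α) {Q : Set α} (hx₀ : x₀ ∈ Q)
    (hK : ∀ i x Z, x ∈ Q → (K i x Z : Set α) ⊆ Q) : closedSet K x₀ ⊆ Q := by
  refine iUnion_subset fun n => ?_
  induction n with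
  | zero => simpa using hx₀
  | succ n ih =>
    rw [Function.iterate_succ_apply']
    refine union_subset ih ?_
    refine iUnion_subset fun i => iUnion₂_subset fun x hx => iUnion₂_subset fun Z _ => ?_
    exact hK i x Z (ih hx)

/-- The used set before step `t` of the greedy construction. -/
noncomputable def usedSet (K : ι → α → Finset α → Finset α) (e : ℕ → ι) (u : ℕ → α) :
    ℕ → Finset α
  | 0 => ∅
  | t + 1 => by
    classical
    exact usedSet K e u t ∪ K (e (Nat.unpair t).2) (u (Nat.unpair t).1) (usedSet K e u t)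

/-- The set chosen at step `t`. -/
noncomputable def chosenSet (K : ι → α → Finset α → Finset α) (e : ℕ → ι) (u : ℕ → α)
    (t : ℕ) : Finset α :=
  K (e (Nat.unpair t).2) (u (Nat.unpair t).1) (usedSet K e u t)

lemma usedSet_succ (K : ι → α → Finset α → Finset α) (e : ℕ → ι) (u : ℕ → α) (t : ℕ) :
    (usedSet K e u (t + 1) : Set α) = (usedSet K e u t : Set α) ∪ (chosenSet K e u t : Set α) := by
  classical
  simp [usedSet, chosenSet]

lemma chosenSet_subset_usedSet (K : ι → α → Finset α → Finset α) (e : ℕ → ι) (u : ℕ → α)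
    {s t : ℕ} (hst : s < t) : (chosenSet K e u s : Set α) ⊆ (usedSet K e u t : Set α) := by
  induction t with
  | zero => omega
  | succ t ih =>
    rw [usedSet_succ]
    rcases Nat.lt_succ_iff_lt_or_eq.1 hst with h | rfl
    · exact (ih h).trans subset_union_left
    · exact subset_union_right

theorem maximal_pack_spanning [Countable ι] {E P : Set α} {M : ι → Matroid α}
    (hE : ∀ i, (M i).E = E) (hPE : P ⊆ E) (hfin : ∀ i, (M i).Finitary)
    (hF : ∀ i, ∀ x ∈ P, ∀ Z : Set α, Z.Finite → x ∈ (M i).closure (P \ (Z ∪ {x})))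
    {S : ι → Set α} (hS : Maximal (· ∈ PackSet P M) S) (i₀ : ι) :
    P ⊆ (M i₀).closure (S i₀) := by
  intro x₀ hx₀P
  by_contra hx₀
  have hSP := hS.prop.1
  have hSdisj := hS.prop.2.1
  have hSspan := hS.prop.2.2
  -- the set spanned by every member
  obtain ⟨X, hXdef⟩ : ∃ X : Set α, X = {x | x ∈ P ∧ ∀ i, x ∈ (M i).closure (S i)} := ⟨_, rfl⟩
  have hXP : X ⊆ P := by rw [hXdef]; exact fun x hx => hx.1
  have hXcl : ∀ i, X ⊆ (M i).closure (S i) := by rw [hXdef]; exact fun i x hx => hx.2 i
  have hSX : ∀ i, S i ⊆ X := by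
    rw [hXdef]
    exact fun i x hx => ⟨hSP i hx, fun k => hSspan k i hx⟩
  have hx₀Q : x₀ ∈ P \ X := by
    refine ⟨hx₀P, ?_⟩
    rw [hXdef]
    exact fun h => hx₀ (h.2 i₀)
  -- local spanning sets
  have hK : ∀ (i : ι) (x : α) (Z : Finset α), ∃ K : Finset α, x ∈ P \ X →
      ((K : Set α) ⊆ (P \ X) \ ((Z : Set α) ∪ {x}) ∧ x ∈ (M i).closure ((K : Set α) ∪ X)) := by
    intro i x Z
    by_cases hx : x ∈ P \ X
    · have := hfin i
      obtain ⟨F, hFsub, hFfin, -, hxF⟩ :=
        exists_mem_finite_closure_of_mem_closure (hF i x hx.1 Z Z.finite_toSet)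
      refine ⟨(hFfin.subset (sdiff_subset (t := X))).toFinset, fun _ => ⟨?_, ?_⟩⟩
      · intro y hy
        rw [Finite.coe_toFinset] at hy
        have := hFsub hy.1
        exact ⟨⟨this.1, hy.2⟩, this.2⟩
      · refine (M i).closure_subset_closure ?_ hxF
        intro y hy
        by_cases hyX : y ∈ X
        · exact Or.inr hyX
        · refine Or.inl ?_
          rw [Finite.coe_toFinset]
          exact ⟨hy, hyX⟩
    · exact ⟨∅, fun h => (hx h).elim⟩
  choose K hK using hK
  have hKQ : ∀ i x Z, x ∈ P \ X → (K i x Z : Set α) ⊆ P \ X :=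
    fun i x Z hx => (hK i x Z hx).1.trans sdiff_subset
  -- the closed countable set
  have hX'Q : closedSet K x₀ ⊆ P \ X := closedSet_subset K x₀ hx₀Q hKQ
  have hne : (closedSet K x₀).Nonempty := ⟨x₀, mem_closedSet_self K x₀⟩
  obtain ⟨u, hu⟩ := (closedSet_countable K x₀).exists_eq_range hne
  have : Nonempty ι := ⟨i₀⟩
  obtain ⟨e, he⟩ := exists_surjective_nat ι
  have hu_mem : ∀ a, u a ∈ closedSet K x₀ := fun a => hu ▸ mem_range_self a
  -- facts about the greedy construction
  have hUsub : ∀ t, (usedSet K e u t : Set α) ⊆ closedSet K x₀ := by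
    intro t
    induction t with
    | zero => simp [usedSet]
    | succ t ih =>
      rw [usedSet_succ]
      exact union_subset ih (closedSet_closed K x₀ _ (hu_mem _) ih)
  have hgsub : ∀ t, (chosenSet K e u t : Set α) ⊆ closedSet K x₀ :=
    fun t => closedSet_closed K x₀ _ (hu_mem _) (hUsub t)
  have hgQ : ∀ t, (chosenSet K e u t : Set α) ⊆ P \ X := fun t => (hgsub t).trans hX'Q
  have hgdisj : ∀ s t, s < t →
      Disjoint (chosenSet K e u s : Set α) (chosenSet K e u t : Set α) := by
    intro s t hst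
    rw [disjoint_left]
    intro y hys hyt
    have h1 := (hK (e (Nat.unpair t).2) (u (Nat.unpair t).1) (usedSet K e u t)
      (hX'Q (hu_mem _))).1 hyt
    exact h1.2 (Or.inl (chosenSet_subset_usedSet K e u hst hys))
  have hgdisj' : ∀ s t, s ≠ t →
      Disjoint (chosenSet K e u s : Set α) (chosenSet K e u t : Set α) := by
    intro s t hst
    rcases lt_or_gt_of_ne hst with h | h
    · exact hgdisj s t h
    · exact (hgdisj t s h).symm
  -- the new sets
  obtain ⟨T, hTdef⟩ : ∃ T : ι → Set α,
      T = fun i => ⋃ t ∈ {t : ℕ | e (Nat.unpair t).2 = i}, (chosenSet K e u t : Set α) := ⟨_, rfl⟩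
  have hTQ : ∀ i, T i ⊆ P \ X := by
    intro i
    rw [hTdef]
    exact iUnion₂_subset fun t _ => hgQ t
  have hTX' : ∀ i, T i ⊆ closedSet K x₀ := by
    intro i
    rw [hTdef]
    exact iUnion₂_subset fun t _ => hgsub t
  have hgT : ∀ t, (chosenSet K e u t : Set α) ⊆ T (e (Nat.unpair t).2) := by
    intro t
    rw [hTdef]
    exact subset_biUnion_of_mem (u := fun t => (chosenSet K e u t : Set α))
      (show t ∈ {s : ℕ | e (Nat.unpair s).2 = e (Nat.unpair t).2} from rfl)
  have hspan : ∀ x ∈ closedSet K x₀, ∀ i, x ∈ (M i).closure (T i ∪ X) := by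
    intro x hx i
    obtain ⟨a, rfl⟩ : ∃ a, u a = x := by
      rw [hu] at hx
      exact hx
    obtain ⟨b, rfl⟩ := he i
    have h1 := (hK (e (Nat.unpair (Nat.pair a b)).2) (u (Nat.unpair (Nat.pair a b)).1)
      (usedSet K e u (Nat.pair a b)) (hX'Q (hu_mem _))).2
    have h2 := hgT (Nat.pair a b)
    simp only [chosenSet, Nat.unpair_pair] at h1 h2
    refine (M (e b)).closure_subset_closure (union_subset_union_left _ ?_) h1
    exact h2
  -- the extended packing
  have hS' : (fun i => S i ∪ T i) ∈ PackSet P M := by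
    refine ⟨fun i => union_subset (hSP i) ((hTQ i).trans sdiff_subset), ?_, ?_⟩
    · intro i j hij
      show Disjoint (S i ∪ T i) (S j ∪ T j)
      rw [disjoint_union_left, disjoint_union_right, disjoint_union_right]
      refine ⟨⟨hSdisj hij, ?_⟩, ?_, ?_⟩
      · exact disjoint_left.2 fun y hyS hyT => (hTQ j hyT).2 (hSX i hyS)
      · exact disjoint_left.2 fun y hyT hyS => (hTQ i hyT).2 (hSX j hyS)
      · rw [hTdef, disjoint_left]
        intro y hyi hyj
        obtain ⟨s, hs, hys⟩ := mem_iUnion₂.1 hyi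
        obtain ⟨t, ht, hyt⟩ := mem_iUnion₂.1 hyj
        have hst : s ≠ t := by
          rintro rfl
          exact hij (hs.symm.trans ht)
        exact disjoint_left.1 (hgdisj' s t hst) hys hyt
    · intro i j
      show S j ∪ T j ⊆ (M i).closure (S i ∪ T i)
      have hground : S i ∪ T i ⊆ (M i).E := by
        rw [hE i]
        exact (union_subset (hSP i) ((hTQ i).trans sdiff_subset)).trans hPE
      refine union_subset ?_ ?_
      · exact (hSspan i j).trans ((M i).closure_subset_closure subset_union_left)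
      · intro y hy
        have h1 := hspan y (hTX' j hy) i
        refine (M i).closure_subset_closure_of_subset_closure ?_ h1
        refine union_subset ?_ ?_
        · exact subset_union_right.trans ((M i).subset_closure _ hground)
        · exact (hXcl i).trans ((M i).closure_subset_closure subset_union_left)
  have hle : S ≤ (fun i => S i ∪ T i) := fun i => subset_union_left
  have hge := hS.le_of_ge hS' hle
  have hTS : T i₀ ⊆ S i₀ := fun y hy => hge i₀ (Or.inr hy)
  have h1 := hspan x₀ (mem_closedSet_self K x₀) i₀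
  apply hx₀
  refine (M i₀).closure_subset_closure_of_subset_closure ?_ h1
  refine union_subset ?_ (hXcl i₀)
  refine hTS.trans ((M i₀).subset_closure _ ?_)
  rw [hE i₀]
  exact (hSP i₀).trans hPE

end Vale.Agent.Lib.P068
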