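import Vale.Agent.Lib.P068.Cover
import Vale.Agent.Lib.P068.Pack

open Set Matroid

namespace Vale.Agent.Lib.P068

variable {α : Type*} {ι : Type*}

theorem pc_of_repeated_finitary [Countable ι] (E : Set α) (M : ι → Matroid α)
    (hE : ∀ i, (M i).E = E) (hfin : ∀ i, (M i).Finitary)
    (hrep : ∀ i, {j | M j = M i}.Infinite) :
    ∃ P C : Set α, P ∪ C = E ∧ Disjoint P C ∧ ∃ S I : ι → Set α,
      (∀ i, S i ⊆ P) ∧ (∀ i, I i ⊆ C) ∧ Pairwise (fun i j => Disjoint (S i) (S j)) ∧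
      (∀ i, ((M i) ↾ P).closure (S i) = P) ∧ (∀ i, (((M i)✶ ↾ C)✶).Indep (I i)) ∧
      ⋃ i, I i = C := by
  obtain ⟨I, hI⟩ := exists_maximal_cov E M hfin
  obtain ⟨S, hS⟩ := exists_maximal_pack (E \ ⋃ j, I j) M
  have hCE : (⋃ j, I j) ⊆ E := by
    refine iUnion_subset fun j => ?_
    have h1 := (hI.prop j).subset_ground
    have h2 := (M j).contract_ground_subset_ground (E \ ⋃ j, I j)
    rw [hE j] at h2
    exact h1.trans h2
  refine ⟨E \ ⋃ j, I j, ⋃ j, I j, sdiff_union_of_subset hCE, disjoint_sdiff_left, S, I,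
    hS.prop.1, fun i => subset_iUnion I i, hS.prop.2.1, ?_, ?_, rfl⟩
  · intro i
    rw [restrict_closure_eq _ (hS.prop.1 i) (by rw [hE i]; exact sdiff_subset)]
    apply inter_eq_right.2
    exact maximal_pack_spanning hE sdiff_subset hfin
      (fun i x hx Z hZ => maximal_cov_closure hE hrep hI i hx hZ) hS i
  · intro i
    have h := hI.prop i
    have heq : M i ／ (E \ ⋃ j, I j) = ((M i)✶ ↾ ⋃ j, I j)✶ := by
      rw [← dual_delete_dual, delete_eq_restrict, dual_ground, hE i, sdiff_sdiff_cancel_left hCE]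
    rwa [heq] at h

end Vale.Agent.Lib.P068
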