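import Mathlib
import Vale.Agent.Lib.P068.Pack

open Set Matroid

namespace Vale.Agent.Lib.P068

variable {α : Type*} {ι : Type*}

/-- A fixed enumeration of a set (onto the set when it is countable and nonempty). -/
noncomputable def enumSet (x₀ : α) (A : Set α) : ℕ → α :=
  @Classical.epsilon (ℕ → α) ⟨fun _ => x₀⟩ (fun f => A = range f)

lemma enumSet_spec (x₀ : α) {A : Set α} (hA : A.Countable) (hne : A.Nonempty) :
    A = range (enumSet x₀ A) :=
  @Classical.epsilon_spec (ℕ → α) (fun f => A = range f) (hA.exists_eq_range hne)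

/-- History of the greedy construction: `histSet K e x₀ t s` is the set chosen at stage `s`
when `s < t`, and is empty otherwise. -/
noncomputable def histSet (K : ι → α → Set α → Set α) (e : ℕ → ι) (x₀ : α) : ℕ → ℕ → Set α
  | 0 => fun _ => ∅
  | t + 1 => Function.update (histSet K e x₀ t) t
      (K (e (Nat.unpair t).2)
        (enumSet x₀ (insert x₀ (histSet K e x₀ t (Nat.unpair (Nat.unpair t).1).1))
          (Nat.unpair (Nat.unpair t).1).2)
        (insert x₀ (⋃ s, histSet K e x₀ t s)))

/-- The set chosen at stage `t`. -/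
noncomputable def stageSet (K : ι → α → Set α → Set α) (e : ℕ → ι) (x₀ : α) (t : ℕ) : Set α :=
  histSet K e x₀ (t + 1) t

lemma histSet_of_le (K : ι → α → Set α → Set α) (e : ℕ → ι) (x₀ : α) {t s : ℕ} (h : t ≤ s) :
    histSet K e x₀ t s = ∅ := by
  induction t with
  | zero => rfl
  | succ t ih =>
    have hne : s ≠ t := by omega
    simp only [histSet]
    rw [Function.update_of_ne hne]
    exact ih (by omega)

lemma histSet_of_lt (K : ι → α → Set α → Set α) (e : ℕ → ι) (x₀ : α) {t s : ℕ} (h : s < t) :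
    histSet K e x₀ t s = stageSet K e x₀ s := by
  induction t with
  | zero => omega
  | succ t ih =>
    by_cases hst : s = t
    · rw [hst]; rfl
    · have : histSet K e x₀ (t + 1) s = histSet K e x₀ t s := by
        simp only [histSet]
        rw [Function.update_of_ne hst]
      rw [this]
      exact ih (by omega)

lemma stageSet_eq (K : ι → α → Set α → Set α) (e : ℕ → ι) (x₀ : α) (t : ℕ) :
    stageSet K e x₀ t = K (e (Nat.unpair t).2)
        (enumSet x₀ (insert x₀ (histSet K e x₀ t (Nat.unpair (Nat.unpair t).1).1))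
          (Nat.unpair (Nat.unpair t).1).2)
        (insert x₀ (⋃ s, histSet K e x₀ t s)) := by
  simp [stageSet, histSet]

theorem maximal_pack_spanning_sigma [Countable ι] {E P : Set α} {M : ι → Matroid α}
    (hE : ∀ i, (M i).E = E) (hPE : P ⊆ E)
    (hLF : ∀ i, ∀ x ∈ P, ∀ Z : Set α, Z.Countable →
      ∃ K : Set α, K.Countable ∧ K ⊆ P \ (Z ∪ {x}) ∧ x ∈ (M i).closure K)
    {S : ι → Set α} (hS : Maximal (· ∈ PackSet P M) S) (i₀ : ι) :
    P ⊆ (M i₀).closure (S i₀) := by
  intro x₀ hx₀P
  by_contra hx₀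
  have hSP := hS.prop.1
  have hSdisj := hS.prop.2.1
  have hSspan := hS.prop.2.2
  -- the set spanned by every member
  obtain ⟨X, hXdef⟩ : ∃ X : Set α, X = {x | x ∈ P ∧ ∀ i, x ∈ (M i).closure (S i)} := ⟨_, rfl⟩
  have hXcl : ∀ i, X ⊆ (M i).closure (S i) := by rw [hXdef]; exact fun i x hx => hx.2 i
  have hSX : ∀ i, S i ⊆ X := by
    rw [hXdef]
    exact fun i x hx => ⟨hSP i hx, fun k => hSspan k i hx⟩
  have hx₀Q : x₀ ∈ P \ X := by
    refine ⟨hx₀P, ?_⟩
    rw [hXdef]
    exact fun h => hx₀ (h.2 i₀)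
  -- local spanning sets
  have hK : ∀ (i : ι) (x : α) (Z : Set α), ∃ K : Set α, x ∈ P \ X → Z.Countable →
      (K.Countable ∧ K ⊆ (P \ X) \ (Z ∪ {x}) ∧ x ∈ (M i).closure (K ∪ X)) := by
    intro i x Z
    by_cases hx : x ∈ P \ X
    · by_cases hZ : Z.Countable
      · obtain ⟨K, hKc, hKsub, hxK⟩ := hLF i x hx.1 Z hZ
        refine ⟨K \ X, fun _ _ => ⟨hKc.mono sdiff_subset, ?_, ?_⟩⟩
        · intro y hy
          have := hKsub hy.1
          exact ⟨⟨this.1, hy.2⟩, this.2⟩
        · refine (M i).closure_subset_closure ?_ hxK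
          intro y hy
          by_cases hyX : y ∈ X
          · exact Or.inr hyX
          · exact Or.inl ⟨hy, hyX⟩
      · exact ⟨∅, fun _ h => (hZ h).elim⟩
    · exact ⟨∅, fun h => (hx h).elim⟩
  choose K hK using hK
  have : Nonempty ι := ⟨i₀⟩
  obtain ⟨e₀, he₀⟩ := exists_surjective_nat ι
  obtain ⟨e, hedef⟩ : ∃ e : ℕ → ι, e = fun b => e₀ (b - 1) := ⟨_, rfl⟩
  have he : ∀ i, ∃ b, 0 < b ∧ e b = i := by
    intro i
    obtain ⟨b, hb⟩ := he₀ i
    refine ⟨b + 1, Nat.succ_pos b, ?_⟩
    rw [hedef]
    simpa using hb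
  obtain ⟨G, hGdef⟩ : ∃ G : ℕ → Set α, G = stageSet K e x₀ := ⟨_, rfl⟩
  obtain ⟨el, heldef⟩ : ∃ el : ℕ → α, el = fun t =>
      enumSet x₀ (insert x₀ (histSet K e x₀ t (Nat.unpair (Nat.unpair t).1).1))
        (Nat.unpair (Nat.unpair t).1).2 := ⟨_, rfl⟩
  obtain ⟨U, hUdef⟩ : ∃ U : ℕ → Set α, U = fun t => insert x₀ (⋃ s, histSet K e x₀ t s) :=
    ⟨_, rfl⟩
  have hel_eq : ∀ t, el t =
      enumSet x₀ (insert x₀ (histSet K e x₀ t (Nat.unpair (Nat.unpair t).1).1))
        (Nat.unpair (Nat.unpair t).1).2 := by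
    intro t
    rw [heldef]
  have hGeq : ∀ t, G t = K (e (Nat.unpair t).2) (el t) (U t) := by
    intro t
    rw [hGdef, heldef, hUdef]
    exact stageSet_eq K e x₀ t
  have hhist_lt : ∀ {s t}, s < t → histSet K e x₀ t s = G s := by
    intro s t h
    rw [hGdef]
    exact histSet_of_lt K e x₀ h
  -- countability and location of the stages
  have hmain : ∀ t, (G t).Countable ∧ G t ⊆ (P \ X) \ (U t ∪ {el t}) ∧ el t ∈ P \ X ∧
      (U t).Countable := by
    intro t
    induction t using Nat.strong_induction_on with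
    | _ t ih =>
      have hh : ∀ s, (histSet K e x₀ t s).Countable ∧ histSet K e x₀ t s ⊆ P \ X := by
        intro s
        by_cases hst : s < t
        · rw [hhist_lt hst]
          exact ⟨(ih s hst).1, (ih s hst).2.1.trans sdiff_subset⟩
        · rw [histSet_of_le K e x₀ (not_lt.1 hst)]
          exact ⟨countable_empty, empty_subset _⟩
      have hel : el t ∈ P \ X := by
        rw [hel_eq t]
        have hA : (insert x₀ (histSet K e x₀ t (Nat.unpair (Nat.unpair t).1).1)).Countable :=
          (hh _).1.insert x₀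
        have hmem := mem_range_self (f := enumSet x₀
          (insert x₀ (histSet K e x₀ t (Nat.unpair (Nat.unpair t).1).1)))
          (Nat.unpair (Nat.unpair t).1).2
        rw [← enumSet_spec x₀ hA (insert_nonempty _ _)] at hmem
        rcases hmem with h | h
        · rw [h]; exact hx₀Q
        · exact (hh _).2 h
      have hUc : (U t).Countable := by
        rw [hUdef]
        exact (countable_iUnion fun s => (hh s).1).insert x₀
      obtain ⟨h1, h2, -⟩ := hK (e (Nat.unpair t).2) (el t) (U t) hel hUc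
      rw [← hGeq t] at h1 h2
      exact ⟨h1, h2, hel, hUc⟩
  have hGQ : ∀ t, G t ⊆ P \ X := fun t => (hmain t).2.1.trans sdiff_subset
  have hGU : ∀ {s t}, s < t → G s ⊆ U t := by
    intro s t h
    rw [hUdef]
    refine subset_trans ?_ (subset_insert _ _)
    rw [← hhist_lt h]
    exact subset_iUnion (fun s => histSet K e x₀ t s) s
  have hgdisj : ∀ s t, s < t → Disjoint (G s) (G t) := by
    intro s t hst
    rw [disjoint_left]
    intro y hys hyt
    exact ((hmain t).2.1 hyt).2 (Or.inl (hGU hst hys))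
  have hgdisj' : ∀ s t, s ≠ t → Disjoint (G s) (G t) := by
    intro s t hst
    rcases lt_or_gt_of_ne hst with h | h
    · exact hgdisj s t h
    · exact (hgdisj t s h).symm
  -- the new sets
  obtain ⟨T, hTdef⟩ : ∃ T : ι → Set α,
      T = fun i => ⋃ t ∈ {t : ℕ | e (Nat.unpair t).2 = i}, G t := ⟨_, rfl⟩
  have hTQ : ∀ i, T i ⊆ P \ X := by
    intro i
    rw [hTdef]
    exact iUnion₂_subset fun t _ => hGQ t
  have hgT : ∀ t, G t ⊆ T (e (Nat.unpair t).2) := by
    intro t
    rw [hTdef]
    exact subset_biUnion_of_mem (u := fun t => G t)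
      (show t ∈ {s : ℕ | e (Nat.unpair s).2 = e (Nat.unpair t).2} from rfl)
  have hspan : ∀ y ∈ insert x₀ (⋃ t, G t), ∀ i, y ∈ (M i).closure (T i ∪ X) := by
    intro y hy i
    obtain ⟨s, hys⟩ : ∃ s, y ∈ insert x₀ (G s) := by
      rcases hy with h | h
      · exact ⟨0, Or.inl h⟩
      · obtain ⟨s, hs⟩ := mem_iUnion.1 h
        exact ⟨s, Or.inr hs⟩
    have hA : (insert x₀ (G s)).Countable := (hmain s).1.insert x₀
    rw [enumSet_spec x₀ hA (insert_nonempty _ _)] at hys
    obtain ⟨a, ha⟩ := hys
    obtain ⟨b, hb0, hb⟩ := he i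
    have hst : s < Nat.pair (Nat.pair s a) b := by
      have h1 : s ≤ Nat.pair s a := Nat.left_le_pair s a
      have h2 : Nat.pair s a ≤ Nat.pair (Nat.pair s a) 0 := Nat.left_le_pair _ _
      have h3 : Nat.pair (Nat.pair s a) 0 < Nat.pair (Nat.pair s a) b :=
        Nat.pair_lt_pair_right _ hb0
      omega
    have hel : el (Nat.pair (Nat.pair s a) b) = y := by
      rw [hel_eq]
      simp only [Nat.unpair_pair]
      rw [hhist_lt hst]
      exact ha
    have h1 := (hK (e (Nat.unpair (Nat.pair (Nat.pair s a) b)).2)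
      (el (Nat.pair (Nat.pair s a) b)) (U (Nat.pair (Nat.pair s a) b))
      (hmain _).2.2.1 (hmain _).2.2.2).2.2
    rw [← hGeq] at h1
    have h2 := hgT (Nat.pair (Nat.pair s a) b)
    rw [hel] at h1
    simp only [Nat.unpair_pair] at h1 h2
    rw [hb] at h1 h2
    exact (M i).closure_subset_closure (union_subset_union_left _ h2) h1
  have hTY : ∀ i, T i ⊆ insert x₀ (⋃ t, G t) := by
    intro i
    rw [hTdef]
    exact iUnion₂_subset fun t _ => (subset_iUnion G t).trans (subset_insert _ _)
  -- the extended packing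
  have hS' : (fun i => S i ∪ T i) ∈ PackSet P M := by
    refine ⟨fun i => union_subset (hSP i) ((hTQ i).trans sdiff_subset), ?_, ?_⟩
    · intro i j hij
      show Disjoint (S i ∪ T i) (S j ∪ T j)
      rw [disjoint_union_left, disjoint_union_right, disjoint_union_right]
      refine ⟨⟨hSdisj hij, ?_⟩, ?_, ?_⟩
      · exact disjoint_left.2 fun y hyS hyT => (hTQ j hyT).2 (hSX i hyS)
      · exact disjoint_left.2 fun y hyT hyS => (hTQ i hyT).2 (hSX j hyS)
      · rw [hTdef, disjoint_left]
        intro y hyi hyj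
        obtain ⟨s, hs, hys⟩ := mem_iUnion₂.1 hyi
        obtain ⟨t, ht, hyt⟩ := mem_iUnion₂.1 hyj
        have hst : s ≠ t := by
          rintro rfl
          exact hij (hs.symm.trans ht)
        exact disjoint_left.1 (hgdisj' s t hst) hys hyt
    · intro i j
      show S j ∪ T j ⊆ (M i).closure (S i ∪ T i)
      have hground : S i ∪ T i ⊆ (M i).E := by
        rw [hE i]
        exact (union_subset (hSP i) ((hTQ i).trans sdiff_subset)).trans hPE
      refine union_subset ?_ ?_
      · exact (hSspan i j).trans ((M i).closure_subset_closure subset_union_left)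
      · intro y hy
        have h1 := hspan y (hTY j hy) i
        refine (M i).closure_subset_closure_of_subset_closure ?_ h1
        refine union_subset ?_ ?_
        · exact subset_union_right.trans ((M i).subset_closure _ hground)
        · exact (hXcl i).trans ((M i).closure_subset_closure subset_union_left)
  have hle : S ≤ (fun i => S i ∪ T i) := fun i => subset_union_left
  have hge := hS.le_of_ge hS' hle
  have hTS : T i₀ ⊆ S i₀ := fun y hy => hge i₀ (Or.inr hy)
  have h1 := hspan x₀ (mem_insert _ _) i₀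
  apply hx₀
  refine (M i₀).closure_subset_closure_of_subset_closure ?_ h1
  refine union_subset ?_ (hXcl i₀)
  refine hTS.trans ((M i₀).subset_closure _ ?_)
  rw [hE i₀]
  exact (hSP i₀).trans hPE

end Vale.Agent.Lib.P068
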