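import Vale.Agent.Lib.P068.Cover2
import Vale.Agent.Lib.P068.Pack2

open Set Matroid

namespace Vale.Agent.Lib.P068

variable {α : Type*} {ι : Type*}

/-- Packing/covering for countable families with infinite repetition, under a local
countable spanning hypothesis on the packing side. -/
theorem pc_of_repeated_local [Countable ι] (E : Set α) (M : ι → Matroid α)
    (hE : ∀ i, (M i).E = E) (hrep : ∀ i, {j | M j = M i}.Infinite)
    (hloc : ∀ P : Set α, P ⊆ E →
      (∀ i, ∀ x ∈ P, ∀ Z : Set α, Z.Countable → x ∈ (M i).closure (P \ (Z ∪ {x}))) →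
      ∀ i, ∀ x ∈ P, ∀ Z : Set α, Z.Countable →
        ∃ K : Set α, K.Countable ∧ K ⊆ P \ (Z ∪ {x}) ∧ x ∈ (M i).closure K) :
    ∃ P C : Set α, P ∪ C = E ∧ Disjoint P C ∧ ∃ S I : ι → Set α,
      (∀ i, S i ⊆ P) ∧ (∀ i, I i ⊆ C) ∧ Pairwise (fun i j => Disjoint (S i) (S j)) ∧
      (∀ i, ((M i) ↾ P).closure (S i) = P) ∧ (∀ i, (((M i)✶ ↾ C)✶).Indep (I i)) ∧
      ⋃ i, I i = C := by
  obtain ⟨I, hI, hmax⟩ := exists_maximal_covExt E M hE
  obtain ⟨S, hS⟩ := exists_maximal_pack (E \ ⋃ j, I j) M
  have hCE : (⋃ j, I j) ⊆ E := by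
    refine iUnion_subset fun j => ?_
    have h1 := (hI j).subset_ground
    have h2 := (M j).contract_ground_subset_ground (E \ ⋃ j, I j)
    rw [hE j] at h2
    exact h1.trans h2
  refine ⟨E \ ⋃ j, I j, ⋃ j, I j, sdiff_union_of_subset hCE, disjoint_sdiff_left, S, I,
    hS.prop.1, fun i => subset_iUnion I i, hS.prop.2.1, ?_, ?_, rfl⟩
  · intro i
    rw [restrict_closure_eq _ (hS.prop.1 i) (by rw [hE i]; exact sdiff_subset)]
    apply inter_eq_right.2
    exact maximal_pack_spanning_sigma hE sdiff_subset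
      (hloc _ sdiff_subset
        (fun i x hx Z hZ => maximal_covExt_closure hE hrep hI hmax i hx hZ)) hS i
  · intro i
    have h := hI i
    have heq : M i ／ (E \ ⋃ j, I j) = ((M i)✶ ↾ ⋃ j, I j)✶ := by
      rw [← dual_delete_dual, delete_eq_restrict, dual_ground, hE i, sdiff_sdiff_cancel_left hCE]
    rwa [heq] at h

/-- Closure in a direct sum, restricted to the first summand. -/
lemma disjointSum_closure_left {F C : Matroid α} {h : Disjoint F.E C.E} {x : α} {A : Set α}
    (hx : x ∈ (F.disjointSum C h).closure A) (hxF : x ∈ F.E) : x ∈ F.closure (A ∩ F.E) := by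
  obtain ⟨J, hJ⟩ := (F.disjointSum C h).exists_isBasis' A
  rw [← hJ.closure_eq_closure, hJ.indep.mem_closure_iff'] at hx
  have hJi := hJ.indep
  rw [disjointSum_indep_iff] at hJi
  have hJF : F.Indep (J ∩ F.E) := hJi.1
  have hxC : x ∉ C.E := fun hxC => (disjoint_left.1 h) hxF hxC
  have h1 : x ∈ F.closure (J ∩ F.E) := by
    rw [hJF.mem_closure_iff']
    refine ⟨hxF, fun hins => ⟨?_, hxF⟩⟩
    apply hx.2
    rw [disjointSum_indep_iff]
    refine ⟨?_, ?_, ?_⟩
    · rwa [insert_inter_of_mem hxF]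
    · rw [insert_inter_of_notMem hxC]
      exact hJi.2.1
    · exact insert_subset (Or.inl hxF) hJi.2.2
  exact F.closure_subset_closure (inter_subset_inter_left _ hJ.subset) h1

/-- Closure in the first summand is contained in closure in the direct sum. -/
lemma closure_subset_disjointSum_closure {F C : Matroid α} {h : Disjoint F.E C.E} {x : α}
    {A : Set α} (hx : x ∈ F.closure A) : x ∈ (F.disjointSum C h).closure A := by
  obtain ⟨J, hJ⟩ := F.exists_isBasis' A
  rw [← hJ.closure_eq_closure, hJ.indep.mem_closure_iff'] at hx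
  have hJE : J ⊆ F.E := hJ.indep.subset_ground
  have hJC : J ∩ C.E = ∅ := by
    rw [← disjoint_iff_inter_eq_empty]
    exact h.mono_left hJE
  have hJi : (F.disjointSum C h).Indep J := by
    rw [disjointSum_indep_iff, inter_eq_self_of_subset_left hJE, hJC]
    exact ⟨hJ.indep, C.empty_indep, hJE.trans subset_union_left⟩
  have h1 : x ∈ (F.disjointSum C h).closure J := by
    rw [hJi.mem_closure_iff']
    refine ⟨by rw [disjointSum_ground_eq]; exact Or.inl hx.1, fun hins => ?_⟩
    apply hx.2
    rw [disjointSum_indep_iff] at hins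
    have := hins.1
    rwa [insert_inter_of_mem hx.1, inter_eq_self_of_subset_left hJE] at this
  exact (F.disjointSum C h).closure_subset_closure hJ.subset h1

/-- The local spanning property for a direct sum of a matroid with countable circuits and a
matroid with countable cocircuits. -/
lemma local_of_disjointSum {F C : Matroid α} {h : Disjoint F.E C.E}
    (hF : ∀ K, F.IsCircuit K → K.Countable) (hC : ∀ K, C.IsCocircuit K → K.Countable)
    {P : Set α} {x : α} (hxE : x ∈ F.E ∪ C.E)
    (hP : ∀ Z : Set α, Z.Countable → x ∈ (F.disjointSum C h).closure (P \ (Z ∪ {x})))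
    {Z : Set α} (hZ : Z.Countable) :
    ∃ K : Set α, K.Countable ∧ K ⊆ P \ (Z ∪ {x}) ∧ x ∈ (F.disjointSum C h).closure K := by
  rcases hxE with hxF | hxC
  · have h1 := disjointSum_closure_left (hP Z hZ) hxF
    have hxA : x ∉ (P \ (Z ∪ {x})) ∩ F.E := fun hx => hx.1.2 (Or.inr rfl)
    obtain ⟨K₀, hK₀sub, hK₀, hxK₀⟩ := exists_isCircuit_of_mem_closure h1 hxA
    refine ⟨K₀ \ {x}, (hF K₀ hK₀).mono sdiff_subset, ?_, ?_⟩
    · intro y hy
      rcases hK₀sub hy.1 with rfl | hy'
      · exact (hy.2 rfl).elim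
      · exact hy'.1
    · exact closure_subset_disjointSum_closure (hK₀.mem_closure_sdiff_singleton_of_mem hxK₀)
  · have hloop : x ∈ C.closure ∅ := by
      by_contra hnl
      have hind : C.Indep {x} := by
        by_contra hni
        apply hnl
        rw [C.empty_indep.mem_closure_iff']
        refine ⟨hxC, fun hins => ?_⟩
        rw [insert_empty_eq] at hins
        exact (hni hins).elim
      obtain ⟨K₁, hK₁, hK₁x⟩ := hind.exists_isCocircuit_inter_eq_mem (mem_singleton x)
      have hxK₁ : x ∈ K₁ := by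
        have : x ∈ K₁ ∩ {x} := by rw [hK₁x]; exact mem_singleton x
        exact this.1
      have h2 : x ∈ (C.disjointSum F h.symm).closure (P \ (K₁ ∪ {x})) := by
        rw [← disjointSum_comm]
        exact hP K₁ (hC K₁ hK₁)
      have h1 := disjointSum_closure_left h2 hxC
      have hxA : x ∉ (P \ (K₁ ∪ {x})) ∩ C.E := fun hx => hx.1.2 (Or.inr rfl)
      obtain ⟨K₂, hK₂sub, hK₂, hxK₂⟩ := exists_isCircuit_of_mem_closure h1 hxA
      apply hK₂.inter_isCocircuit_ne_singleton hK₁ (e := x)
      ext y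
      simp only [mem_inter_iff, mem_singleton_iff]
      constructor
      · rintro ⟨hy2, hy1⟩
        rcases hK₂sub hy2 with rfl | hy'
        · rfl
        · exact (hy'.1.2 (Or.inl hy1)).elim
      · rintro rfl
        exact ⟨hxK₂, hxK₁⟩
    refine ⟨∅, countable_empty, empty_subset _, ?_⟩
    have h3 : x ∈ (C.disjointSum F h.symm).closure ∅ := closure_subset_disjointSum_closure hloop
    rwa [← disjointSum_comm] at h3

/-- Packing/covering for countable families with infinite repetition whose members are direct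
sums of a matroid with countable circuits and a matroid with countable cocircuits. -/
theorem pc_of_repeated_countable_sums [Countable ι] (E : Set α) (M : ι → Matroid α)
    (hE : ∀ i, (M i).E = E)
    (hsum : ∀ i, ∃ (F C : Matroid α) (h : Disjoint F.E C.E), M i = F.disjointSum C h ∧
      (∀ K, F.IsCircuit K → K.Countable) ∧ (∀ K, C.IsCocircuit K → K.Countable))
    (hrep : ∀ i, {j | M j = M i}.Infinite) :
    ∃ P C : Set α, P ∪ C = E ∧ Disjoint P C ∧ ∃ S I : ι → Set α,
      (∀ i, S i ⊆ P) ∧ (∀ i, I i ⊆ C) ∧ Pairwise (fun i j => Disjoint (S i) (S j)) ∧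
      (∀ i, ((M i) ↾ P).closure (S i) = P) ∧ (∀ i, (((M i)✶ ↾ C)✶).Indep (I i)) ∧
      ⋃ i, I i = C := by
  refine pc_of_repeated_local E M hE hrep ?_
  intro P hPE hP i x hx Z hZ
  obtain ⟨F, C, h, hM, hF, hC⟩ := hsum i
  have hxE : x ∈ F.E ∪ C.E := by
    have : x ∈ (M i).E := by rw [hE i]; exact hPE hx
    rwa [hM, disjointSum_ground_eq] at this
  have hP' : ∀ Z : Set α, Z.Countable → x ∈ (F.disjointSum C h).closure (P \ (Z ∪ {x})) := by
    intro Z hZ
    rw [← hM]
    exact hP i x hx Z hZ
  rw [hM]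
  exact local_of_disjointSum hF hC hxE hP' hZ

/-- Packing/covering for countable families with infinite repetition whose members are direct
sums of a finitary and a cofinitary matroid. -/
theorem pc_of_repeated_finitary_cofinitary_sums [Countable ι] (E : Set α) (M : ι → Matroid α)
    (hE : ∀ i, (M i).E = E)
    (hsum : ∀ i, ∃ (F C : Matroid α) (h : Disjoint F.E C.E), M i = F.disjointSum C h ∧
      F.Finitary ∧ C✶.Finitary)
    (hrep : ∀ i, {j | M j = M i}.Infinite) :
    ∃ P C : Set α, P ∪ C = E ∧ Disjoint P C ∧ ∃ S I : ι → Set α,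
      (∀ i, S i ⊆ P) ∧ (∀ i, I i ⊆ C) ∧ Pairwise (fun i j => Disjoint (S i) (S j)) ∧
      (∀ i, ((M i) ↾ P).closure (S i) = P) ∧ (∀ i, (((M i)✶ ↾ C)✶).Indep (I i)) ∧
      ⋃ i, I i = C := by
  refine pc_of_repeated_countable_sums E M hE ?_ hrep
  intro i
  obtain ⟨F, C, h, hM, hF, hC⟩ := hsum i
  refine ⟨F, C, h, hM, fun K hK => ?_, fun K hK => ?_⟩
  · exact hK.finite.countable
  · have hK' : C✶.IsCircuit K := hK
    exact hK'.finite.countable

end Vale.Agent.Lib.P068
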