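import Vale.Agent.Lib.P068.Main2

open Set Matroid

namespace Vale.Agent.Lib.P068

variable {α : Type*} {ι : Type*}

/-- The local spanning property for a matroid in which every circuit is countable or meets a
countable cocircuit. -/
lemma local_of_circuit_cocircuit {N : Matroid α}
    (hcc : ∀ K, N.IsCircuit K → K.Countable ∨
      ∃ D, N.IsCocircuit D ∧ D.Countable ∧ (K ∩ D).Nonempty)
    {P : Set α}
    (hP : ∀ y ∈ P, ∀ Z : Set α, Z.Countable → y ∈ N.closure (P \ (Z ∪ {y})))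
    {x : α} (hx : x ∈ P) {Z : Set α} (hZ : Z.Countable) :
    ∃ K : Set α, K.Countable ∧ K ⊆ P \ (Z ∪ {x}) ∧ x ∈ N.closure K := by
  have h1 := hP x hx Z hZ
  have hxA : x ∉ P \ (Z ∪ {x}) := fun h => h.2 (Or.inr rfl)
  obtain ⟨K₀, hK₀sub, hK₀, hxK₀⟩ := exists_isCircuit_of_mem_closure h1 hxA
  rcases hcc K₀ hK₀ with hc | ⟨D, hD, hDc, y, hyK, hyD⟩
  · refine ⟨K₀ \ {x}, hc.mono sdiff_subset, ?_, hK₀.mem_closure_sdiff_singleton_of_mem hxK₀⟩
    intro y hy
    rcases hK₀sub hy.1 with rfl | hy'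
    · exact (hy.2 rfl).elim
    · exact hy'
  · exfalso
    have hyP : y ∈ P := by
      rcases hK₀sub hyK with rfl | hy'
      · exact hx
      · exact hy'.1
    have h2 := hP y hyP D hDc
    have hyA : y ∉ P \ (D ∪ {y}) := fun h => h.2 (Or.inr rfl)
    obtain ⟨K₂, hK₂sub, hK₂, hyK₂⟩ := exists_isCircuit_of_mem_closure h2 hyA
    apply hK₂.inter_isCocircuit_ne_singleton hD (e := y)
    ext z
    simp only [mem_inter_iff, mem_singleton_iff]
    constructor
    · rintro ⟨hz2, hz1⟩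
      rcases hK₂sub hz2 with rfl | hz'
      · rfl
      · exact (hz'.2 (Or.inl hz1)).elim
    · rintro rfl
      exact ⟨hyK₂, hyD⟩

/-- Packing/covering for countable families with infinite repetition in which every circuit
of every member is countable or meets a countable cocircuit of that member. -/
theorem pc_of_repeated_circuit_cocircuit [Countable ι] (E : Set α) (M : ι → Matroid α)
    (hE : ∀ i, (M i).E = E)
    (hcc : ∀ i, ∀ K, (M i).IsCircuit K → K.Countable ∨
      ∃ D, (M i).IsCocircuit D ∧ D.Countable ∧ (K ∩ D).Nonempty)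
    (hrep : ∀ i, {j | M j = M i}.Infinite) :
    ∃ P C : Set α, P ∪ C = E ∧ Disjoint P C ∧ ∃ S I : ι → Set α,
      (∀ i, S i ⊆ P) ∧ (∀ i, I i ⊆ C) ∧ Pairwise (fun i j => Disjoint (S i) (S j)) ∧
      (∀ i, ((M i) ↾ P).closure (S i) = P) ∧ (∀ i, (((M i)✶ ↾ C)✶).Indep (I i)) ∧
      ⋃ i, I i = C := by
  refine pc_of_repeated_local E M hE hrep ?_
  intro P _ hP i x hx Z hZ
  exact local_of_circuit_cocircuit (hcc i) (fun y hy Z hZ => hP i y hy Z hZ) hx hZ

end Vale.Agent.Lib.P068
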